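import Vale.Agent.P359.Cert.Two.Window

/-!
# P359: two-body checks, levels 8 to 14
-/

namespace Vale.Agent.P359.Cert

theorem twoOK_8 : TwoOK 8 :=
  twoOK_of_check (C := two8) ⟨by decide +kernel, by decide +kernel,
    by decide +kernel, by decide +kernel, window_ok, by decide +kernel⟩

theorem twoOK_9 : TwoOK 9 :=
  twoOK_of_check (C := two9) ⟨by decide +kernel, by decide +kernel,
    by decide +kernel, by decide +kernel, window_ok, by decide +kernel⟩

theorem twoOK_10 : TwoOK 10 :=
  twoOK_of_check (C := two10) ⟨by decide +kernel, by decide +kernel,
    by decide +kernel, by decide +kernel, window_ok, by decide +kernel⟩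

theorem twoOK_11 : TwoOK 11 :=
  twoOK_of_check (C := two11) ⟨by decide +kernel, by decide +kernel,
    by decide +kernel, by decide +kernel, window_ok, by decide +kernel⟩

theorem twoOK_12 : TwoOK 12 :=
  twoOK_of_check (C := two12) ⟨by decide +kernel, by decide +kernel,
    by decide +kernel, by decide +kernel, window_ok, by decide +kernel⟩

theorem twoOK_13 : TwoOK 13 :=
  twoOK_of_check (C := two13) ⟨by decide +kernel, by decide +kernel,
    by decide +kernel, by decide +kernel, window_ok, by decide +kernel⟩

theorem twoOK_14 : TwoOK 14 :=
  twoOK_of_check (C := two14) ⟨by decide +kernel, by decide +kernel,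
    by decide +kernel, by decide +kernel, window_ok, by decide +kernel⟩

end Vale.Agent.P359.Cert
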