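import Vale.Agent.P359.Cert.Two.Window

/-!
# P359: two-body checks, levels 15 to 20
-/

namespace Vale.Agent.P359.Cert

theorem twoOK_15 : TwoOK 15 :=
  twoOK_of_check (C := two15) ⟨by decide +kernel, by decide +kernel,
    by decide +kernel, by decide +kernel, window_ok, by decide +kernel⟩

theorem twoOK_16 : TwoOK 16 :=
  twoOK_of_check (C := two16) ⟨by decide +kernel, by decide +kernel,
    by decide +kernel, by decide +kernel, window_ok, by decide +kernel⟩

theorem twoOK_17 : TwoOK 17 :=
  twoOK_of_check (C := two17) ⟨by decide +kernel, by decide +kernel,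
    by decide +kernel, by decide +kernel, window_ok, by decide +kernel⟩

theorem twoOK_18 : TwoOK 18 :=
  twoOK_of_check (C := two18) ⟨by decide +kernel, by decide +kernel,
    by decide +kernel, by decide +kernel, window_ok, by decide +kernel⟩

theorem twoOK_19 : TwoOK 19 :=
  twoOK_of_check (C := two19) ⟨by decide +kernel, by decide +kernel,
    by decide +kernel, by decide +kernel, window_ok, by decide +kernel⟩

theorem twoOK_20 : TwoOK 20 :=
  twoOK_of_check (C := two20) ⟨by decide +kernel, by decide +kernel,
    by decide +kernel, by decide +kernel, window_ok, by decide +kernel⟩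

end Vale.Agent.P359.Cert
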