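import Vale.Agent.P359.Cert.Planar

/-!
# P359: checking the two-body inequalities

An admissible highest weight vector of level `L` is a combination of `(z - Z) ^ j (z' - Z) ^ (L - j)`
(antisymmetrised); the certificate gives integer vectors spanning the admissible ones and a
decomposition of the difference of the two forms on them as a sum of squares.
-/

namespace Vale.Agent.P359.Cert

open Finset

/-- The translation invariant basis of level `L`. -/
def baseI (L j a b : ℕ) : ℤ :=
  if a < b ∧ a + b ≤ L then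
    (-1) ^ (L - a - b) *
      ((j.choose a * (L - j).choose b : ℕ) - ((L - j).choose a * j.choose b : ℕ) : ℤ)
  else 0

/-- A combination of integer vectors. -/
noncomputable def comb {d : ℕ} (y : Fin d → ℝ) (V : Fin d → ℕ → ℕ → ℤ) (a b : ℕ) : ℝ :=
  ∑ i, y i * (V i a b : ℝ)

/-- The derivative on integer vectors. -/
def lowerI (L : ℕ) (v : ℕ → ℕ → ℤ) (a b : ℕ) : ℤ :=
  ((L - a - b : ℕ) : ℤ) * v a b + ((a : ℤ) + 1) * (if a + 1 < b then v (a + 1) b else 0)
    + ((b : ℤ) + 1) * v a (b + 1)

/-- Lowering on integer vectors. -/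
def raiseI (v : ℕ → ℕ → ℤ) (a b : ℕ) : ℤ :=
  if a < b then 2 * v a b + (if a = 0 then 0 else v (a - 1) b) + v a (b - 1) else 0

/-- Iterated lowering. -/
def descI (v : ℕ → ℕ → ℤ) : ℕ → ℕ → ℕ → ℤ
  | 0 => v
  | s + 1 => raiseI (descI v s)

/-- An entry of a table. -/
def get (t : List (List ℤ)) (a b : ℕ) : ℤ := (t.getD a []).getD b 0

/-- Tabulation on `a, b ≤ L`. -/
def tab (L : ℕ) (f : ℕ → ℕ → ℤ) : List (List ℤ) :=
  (List.range (L + 1)).map fun a => (List.range (L + 1)).map fun b => f a b

/-- The lowered vectors as tables. -/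
def tabs (L : ℕ) (v : ℕ → ℕ → ℤ) : ℕ → List (List ℤ)
  | 0 => tab L v
  | s + 1 => tab (L + (s + 1)) (raiseI (get (tabs L v s)))

/-- Pairing with a monomial of pair weight at most `5`, times `32`. -/
def momI (T : ℕ) (v : ℕ → ℕ → ℤ) (a b : ℕ) : ℤ :=
  v a b * (2 ^ (5 - (T - a - b)) * ((T - a - b).factorial * a.factorial * b.factorial) : ℕ)

/-- The entries of level `T`. -/
def entries (T : ℕ) : List ((ℕ × ℕ) × (ℕ × ℕ) × ℤ) := lamNum.getD T []

/-- The bilinear two-body form, times `1024 den`. -/
def lamI (T : ℕ) (u v : ℕ → ℕ → ℤ) : ℤ :=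
  ((((entries T).map fun e => momI T u e.1.1 e.1.2).zip
    ((entries T).map fun e => e.2.2 * momI T v e.2.1.1 e.2.1.2)).map fun p => p.1 * p.2).sum

/-- The bilinear averaged form. -/
def avgQ (L : ℕ) (u v : ℕ → ℕ → ℤ) : ℚ :=
  ∑ s ∈ range (21 - L), (lamI (L + s) (get (tabs L u s)) (get (tabs L v s)) : ℚ) /
    (2 * 1024 * (den : ℚ) * (4 ^ s * s.factorial : ℕ))

/-- The pairing with the pair vector of pair weight `M`. -/
def pdot (L M : ℕ) (v : ℕ → ℕ → ℤ) : ℚ :=
  ∑ a ∈ range (L - M + 1), if a < L - M - a then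
    (v a (L - M - a) : ℚ) * pairCoef a (L - M - a) * a.factorial * (L - M - a).factorial else 0

/-- The squared norm of the pair vector. -/
def pnorm (L M : ℕ) : ℚ :=
  ∑ a ∈ range (L - M + 1), if a < L - M - a then
    pairCoef a (L - M - a) ^ 2 * a.factorial * (L - M - a).factorial else 0

/-- The bilinear pair form. -/
def pairQ (L : ℕ) (u v : ℕ → ℕ → ℤ) : ℚ :=
  ∑ M ∈ range L, pdot L M u * pdot L M v * nX M / pnorm L M

/-- The constraint row of momentum `k` on a vector. -/
def rowQ (L k : ℕ) (v : ℕ → ℕ → ℤ) : ℚ := channel L k (L - k) fun a b => (v a b : ℚ)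

/-- A quotient. -/
def frac (p : ℤ × ℕ) : ℚ := (p.1 : ℚ) / (p.2 : ℚ)

/-- A certificate at one level: spanning combinations, their pivots, the span identity and a
weighted sum of squares. -/
structure Two where
  N : List (List ℤ)
  F : List ℕ
  Lm : List (List (ℤ × ℕ))
  D : List (ℤ × ℕ)
  U : List (List (ℤ × ℕ))

/-- The number of free coefficients at level `L`. -/
def nFree (L : ℕ) : ℕ := (L + 1) / 2

/-- The spanning vector `i`. -/
def Two.vec (C : Two) (L i a b : ℕ) : ℤ :=
  ∑ j ∈ range (nFree L), (C.N.getD i []).getD j 0 * baseI L j a b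

/-- The excluded momenta at level `L`. -/
def excl (L : ℕ) : List ℕ := [0, 1, 3].filter fun k => decide (k ≤ L)

/-- What is checked at one level. -/
def Two.Check (C : Two) (L : ℕ) : Prop :=
  (∀ j < nFree L, ∀ a < L, ∀ b < L + 1, a < b → a + b + 1 ≤ L → lowerI L (baseI L j) a b = 0) ∧
  (∀ j < nFree L, ∀ l < nFree L, (if j = l then (1 : ℚ) else 0) =
    (∑ i ∈ range C.F.length, if C.F.getD i 0 = l then
      ((C.N.getD i []).getD j 0 : ℚ) / ((C.N.getD i []).getD l 0 : ℤ) else 0)
    + ∑ k ∈ range (excl L).length,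
      frac ((C.Lm.getD j []).getD k (0, 1)) * rowQ L ((excl L).getD k 0) (baseI L l)) ∧
  (∀ f ∈ C.F, f < nFree L) ∧
  (∀ p ∈ C.D, 0 ≤ p.1) ∧
  (∀ T < 21, ∀ e ∈ entries T, T - e.1.1 - e.1.2 ≤ 5 ∧ T - e.2.1.1 - e.2.1.2 ≤ 5) ∧
  ∀ i < C.F.length, ∀ j < C.F.length,
    pairQ L (C.vec L i) (C.vec L j) - avgQ L (C.vec L i) (C.vec L j) =
      ∑ r ∈ range C.D.length, frac (C.D.getD r (0, 1)) *
        frac ((C.U.getD r []).getD i (0, 1)) * frac ((C.U.getD r []).getD j (0, 1))

lemma get_tab (L : ℕ) (f : ℕ → ℕ → ℤ) (hf : ∀ a b, ¬ (a < b ∧ a + b ≤ L) → f a b = 0)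
    (a b : ℕ) : get (tab L f) a b = f a b := by
  unfold get tab
  by_cases ha : a < L + 1
  · by_cases hb : b < L + 1
    · simp [List.getD_eq_getElem?_getD, ha, hb]
    · simp [List.getD_eq_getElem?_getD, ha, hb, hf a b (by omega)]
  · simp [List.getD_eq_getElem?_getD, ha, hf a b (by omega)]

lemma descI_level {L : ℕ} {v : ℕ → ℕ → ℤ} (hv : ∀ a b, ¬ (a < b ∧ a + b ≤ L) → v a b = 0) :
    ∀ s a b, ¬ (a < b ∧ a + b ≤ L + s) → descI v s a b = 0 := by
  intro s
  induction s with
  | zero => exact hv
  | succ s ih =>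
    intro a b h
    simp only [descI, raiseI]
    split_ifs with h1 h2
    · rw [ih a b (by omega), ih a (b - 1) (by omega)]; ring
    · rw [ih a b (by omega), ih (a - 1) b (by omega), ih a (b - 1) (by omega)]; ring
    · rfl

lemma get_tabs {L : ℕ} {v : ℕ → ℕ → ℤ} (hv : ∀ a b, ¬ (a < b ∧ a + b ≤ L) → v a b = 0) :
    ∀ s, get (tabs L v s) = descI v s := by
  intro s
  induction s with
  | zero => funext a b; exact get_tab L v hv a b
  | succ s ih =>
    funext a b
    rw [tabs, ih]
    exact get_tab _ _ (descI_level hv (s + 1)) a b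

variable {d : ℕ} (y : Fin d → ℝ) (V : Fin d → ℕ → ℕ → ℤ)

lemma desc2_comb : ∀ s, desc2 (comb y V) s = comb y fun i => descI (V i) s := by
  intro s
  induction s with
  | zero => rfl
  | succ s ih =>
    funext a b
    rw [desc2, ih]
    simp only [raise2, comb, descI, raiseI]
    split_ifs with h1 h2
    · simp [Finset.mul_sum, ← Finset.sum_add_distrib]
      exact Finset.sum_congr rfl fun i _ => by ring
    · simp [Finset.mul_sum, ← Finset.sum_add_distrib]
      exact Finset.sum_congr rfl fun i _ => by ring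
    · simp

lemma lower2_comb (L a b : ℕ) :
    lower2 L (comb y V) a b = ∑ i, y i * (lowerI L (V i) a b : ℝ) := by
  simp only [lower2, comb, lowerI]
  split_ifs with h
  · simp only [Finset.mul_sum, ← Finset.sum_add_distrib]
    exact Finset.sum_congr rfl fun i _ => by push_cast; ring
  · simp only [mul_zero, add_zero, Finset.mul_sum, ← Finset.sum_add_distrib]
    exact Finset.sum_congr rfl fun i _ => by push_cast; ring

lemma cast_nX (M : ℕ) : ((nX M : ℚ) : ℝ) = nX M := by simp [nX]

lemma cast_pairCoef (a b : ℕ) : ((pairCoef a b : ℚ) : ℝ) = pairCoef a b := by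
  simp only [pairCoef]
  split_ifs <;> push_cast <;> ring

lemma channel_comb (L k : ℕ) (hk : k ≤ L) :
    channel L k (L - k) (comb y V) = ∑ i, y i * (rowQ L k (V i) : ℝ) := by
  have h0 : L - (L - k) - k = 0 := by omega
  simp only [channel, rowQ, h0, desc1, comb, anti, Rat.cast_sum, Finset.mul_sum]
  rw [Finset.sum_comm (s := Finset.univ)]
  refine Finset.sum_congr rfl fun p _ => ?_
  split_ifs <;>
    simp [hw1, nX, Finset.mul_sum, Finset.sum_mul] <;>
    exact Finset.sum_congr rfl fun i _ => by ring

/-- A sum of products of linear forms. -/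
lemma quad_expand {ι : Type*} (s : Finset ι) (w : ι → ℝ) (f g : ι → Fin d → ℝ) :
    ∑ e ∈ s, w e * ((∑ i, y i * f e i) * ∑ j, y j * g e j) =
      ∑ i, ∑ j, y i * y j * ∑ e ∈ s, w e * f e i * g e j := by
  calc _ = ∑ e ∈ s, ∑ i, ∑ j, y i * y j * (w e * f e i * g e j) := by
        refine Finset.sum_congr rfl fun e _ => ?_
        rw [Finset.sum_mul_sum, Finset.mul_sum]
        refine Finset.sum_congr rfl fun i _ => ?_
        rw [Finset.mul_sum]
        exact Finset.sum_congr rfl fun j _ => by ring
    _ = _ := by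
        rw [Finset.sum_comm]
        refine Finset.sum_congr rfl fun i _ => ?_
        rw [Finset.sum_comm]
        exact Finset.sum_congr rfl fun j _ => (Finset.mul_sum _ _ _).symm

lemma pairForm_comb (L : ℕ) :
    pairForm L (comb y V) = ∑ i, ∑ j, y i * y j * (pairQ L (V i) (V j) : ℝ) := by
  have h : ∀ M, (∑ a ∈ range (L - M + 1), if a < L - M - a then
      comb y V a (L - M - a) * pairCoef a (L - M - a) * a.factorial * (L - M - a).factorial else 0)
      = ∑ i, y i * (pdot L M (V i) : ℝ) := by
    intro M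
    simp only [pdot, Rat.cast_sum, Finset.mul_sum]
    rw [Finset.sum_comm (s := Finset.univ)]
    refine Finset.sum_congr rfl fun a _ => ?_
    split_ifs
    · simp only [comb, Finset.sum_mul]
      exact Finset.sum_congr rfl fun i _ => by push_cast [cast_pairCoef]; ring
    · simp
  have hn : ∀ M, (∑ a ∈ range (L - M + 1), if a < L - M - a then
      (pairCoef a (L - M - a) : ℝ) ^ 2 * (a.factorial : ℝ) * ((L - M - a).factorial : ℝ) else 0)
      = (pnorm L M : ℝ) := by
    intro M
    simp only [pnorm, Rat.cast_sum]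
    refine Finset.sum_congr rfl fun a _ => ?_
    split_ifs <;> push_cast [cast_pairCoef] <;> ring
  simp only [pairForm, h, hn]
  refine ((Finset.sum_congr rfl fun M _ => ?_).trans (quad_expand y (range L)
    (fun M => (nX M : ℝ) / (pnorm L M : ℝ)) (fun M i => (pdot L M (V i) : ℝ))
    (fun M i => (pdot L M (V i) : ℝ)))).trans ?_
  · ring
  · refine Finset.sum_congr rfl fun i _ => Finset.sum_congr rfl fun j _ => ?_
    simp only [pairQ, Rat.cast_sum]
    congr 1
    exact Finset.sum_congr rfl fun M _ => by push_cast [cast_nX]; ring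

lemma mom2_comb {T a b : ℕ} (h : T - a - b ≤ 5) :
    mom2 T (comb y V) a b = ∑ i, y i * ((momI T (V i) a b : ℝ) / 32) := by
  obtain ⟨e, he⟩ := Nat.exists_eq_add_of_le h
  simp only [mom2, comb, momI, nX, Finset.sum_mul]
  refine Finset.sum_congr rfl fun i _ => ?_
  have h5 : (32 : ℝ) = 2 ^ (T - a - b) * 2 ^ (5 - (T - a - b)) := by
    rw [← pow_add, Nat.add_sub_cancel' h]; norm_num
  rw [h5]
  push_cast
  field_simp

lemma lamForm_comb {T : ℕ}
    (hT : ∀ e ∈ entries T, T - e.1.1 - e.1.2 ≤ 5 ∧ T - e.2.1.1 - e.2.1.2 ≤ 5) :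
    lamForm T (comb y V) = ∑ i, ∑ j, y i * y j * ((lamI T (V i) (V j) : ℝ) / (1024 * (den : ℝ))) := by
  have hI : ∀ u v : ℕ → ℕ → ℤ, lamI T u v = ((entries T).map fun e =>
      momI T u e.1.1 e.1.2 * (e.2.2 * momI T v e.2.1.1 e.2.1.2)).sum := fun u v => by
    simp only [lamI, List.zip_map', List.map_map]
    rfl
  simp only [hI, lamForm, entries] at *
  generalize lamNum.getD T [] = es at hT ⊢
  induction es with
  | nil => simp
  | cons e es ih =>
    simp only [List.map_cons, List.sum_cons]
    rw [ih fun x hx => hT x (List.mem_cons_of_mem _ hx), mom2_comb y V (hT e (by simp)).1,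
      mom2_comb y V (hT e (by simp)).2, Finset.sum_mul_sum, Finset.mul_sum, ← Finset.sum_add_distrib]
    refine Finset.sum_congr rfl fun i _ => ?_
    rw [Finset.mul_sum, ← Finset.sum_add_distrib]
    refine Finset.sum_congr rfl fun j _ => ?_
    simp only [val]
    push_cast
    ring

lemma avgForm2_comb {L : ℕ}
    (hV : ∀ i a b, ¬ (a < b ∧ a + b ≤ L) → V i a b = 0)
    (hT : ∀ T < 21, ∀ e ∈ entries T, T - e.1.1 - e.1.2 ≤ 5 ∧ T - e.2.1.1 - e.2.1.2 ≤ 5) :
    avgForm2 L (comb y V) = ∑ i, ∑ j, y i * y j * (avgQ L (V i) (V j) : ℝ) := by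
  calc avgForm2 L (comb y V) = ∑ s ∈ range (21 - L), ∑ i, ∑ j, y i * y j *
        ((lamI (L + s) (descI (V i) s) (descI (V j) s) : ℝ) /
          (2 * 1024 * (den : ℝ) * ((4 : ℝ) ^ s * (s.factorial : ℝ)))) := by
        rw [avgForm2, Finset.mul_sum]
        refine Finset.sum_congr rfl fun s hs => ?_
        rw [desc2_comb, lamForm_comb y (fun i => descI (V i) s)
          (hT (L + s) (by have := Finset.mem_range.1 hs; omega))]
        simp only [Finset.sum_div, Finset.mul_sum]
        exact Finset.sum_congr rfl fun i _ => Finset.sum_congr rfl fun j _ => by ring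
    _ = _ := by
        rw [Finset.sum_comm]
        refine Finset.sum_congr rfl fun i _ => ?_
        rw [Finset.sum_comm]
        refine Finset.sum_congr rfl fun j _ => ?_
        rw [avgQ, Rat.cast_sum, Finset.mul_sum]
        refine Finset.sum_congr rfl fun s _ => ?_
        rw [get_tabs (hV i), get_tabs (hV j)]
        push_cast
        ring

lemma comb_base {L : ℕ} (hB : ∀ j < nFree L, ∀ a < L, ∀ b < L + 1, a < b → a + b + 1 ≤ L →
      lowerI L (baseI L j) a b = 0) {c : ℕ → ℕ → ℝ} (hc : IsAdm2 L c) (a b : ℕ) :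
    c a b = comb (fun j : Fin (nFree L) => c j (L - j)) (fun j => baseI L j) a b := by
  set g := comb (fun j : Fin (nFree L) => c j (L - j)) (fun j => baseI L j) with hg
  by_cases hab : a < b ∧ a + b ≤ L
  · suffices H : ∀ M a b, a < b → a + b + M = L → c a b = g a b from
      H (L - a - b) a b hab.1 (by omega)
    intro M
    induction M with
    | zero =>
      intro a b hab h
      have ha : a < nFree L := by unfold nFree; omega
      rw [hg, comb, Finset.sum_eq_single ⟨a, ha⟩]
      · have hb : L - a = b := by omega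
        simp only [baseI]
        rw [if_pos ⟨hab, by omega⟩, show L - a - b = 0 by omega, hb,
          Nat.choose_eq_zero_of_lt (show a < b by omega)]
        simp
      · intro j _ hj
        have hne : (j : ℕ) ≠ a := fun he => hj (Fin.ext he)
        have hj2 := j.isLt
        unfold nFree at hj2
        simp only [baseI]
        rw [if_pos ⟨hab, by omega⟩]
        rcases Nat.lt_or_gt_of_ne hne with hlt | hgt
        · rw [Nat.choose_eq_zero_of_lt hlt, Nat.choose_eq_zero_of_lt (show (j : ℕ) < b by omega)]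
          simp
        · rw [Nat.choose_eq_zero_of_lt (show L - j < b by omega),
            Nat.choose_eq_zero_of_lt (show (j : ℕ) < b by omega)]
          simp
      · simp
    | succ M ih =>
      intro a b hab h
      have h1 := hc.2.1 a b hab (by omega)
      have h2 : lower2 L g a b = 0 := by
        rw [hg, lower2_comb]
        exact Finset.sum_eq_zero fun j _ => by
          rw [hB j j.isLt a (by omega) b (by omega) hab (by omega)]; simp
      simp only [lower2] at h1 h2
      rw [ih a (b + 1) (by omega) (by omega)] at h1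
      have hp : (0 : ℝ) < ((L - a - b : ℕ) : ℝ) := by
        exact_mod_cast (show 0 < L - a - b by omega)
      refine mul_left_cancel₀ hp.ne' ?_
      by_cases h3 : a + 1 < b
      · rw [if_pos h3, ih (a + 1) b h3 (by omega)] at h1
        rw [if_pos h3] at h2
        linarith
      · rw [if_neg h3] at h1 h2
        linarith
  · rw [hc.1 a b hab, hg, comb]
    symm
    exact Finset.sum_eq_zero fun j _ => by simp [baseI, hab]

/-- A checked certificate proves the two-body inequality. -/
theorem twoOK_of_check {C : Two} {L : ℕ} (h : C.Check L) : TwoOK L := by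
  obtain ⟨hB, hspan, hF, hD, hT, hM⟩ := h
  intro c hc
  set x : Fin (nFree L) → ℝ := fun j => c j (L - j) with hx
  have hcx : c = comb x fun j => baseI L j := by
    funext a b; exact comb_base hB hc a b
  have hrow : ∀ k < (excl L).length,
      ∑ l : Fin (nFree L), x l * (rowQ L ((excl L).getD k 0) (baseI L l) : ℝ) = 0 := by
    intro k hk
    have hmem : (excl L).getD k 0 ∈ excl L := by
      rw [List.getD_eq_getElem _ _ hk]; exact List.getElem_mem hk
    generalize (excl L).getD k 0 = k' at hmem ⊢
    simp only [excl, List.mem_filter, decide_eq_true_eq] at hmem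
    rw [← channel_comb x (fun j => baseI L j) L k' hmem.2, ← hcx]
    exact hc.2.2 k' hmem.1 (L - k') (by omega)
  set y : Fin C.F.length → ℝ := fun i => if hi : C.F.getD i 0 < nFree L then
    x ⟨C.F.getD i 0, hi⟩ / (((C.N.getD i []).getD (C.F.getD i 0) 0 : ℤ) : ℝ) else 0 with hy
  have hxy : ∀ j : Fin (nFree L), x j = ∑ i, y i * ((C.N.getD i []).getD j 0 : ℝ) := by
    intro j
    calc x j = ∑ l : Fin (nFree L), x l * (if (j : ℕ) = l then (1 : ℝ) else 0) := by
          rw [Finset.sum_eq_single j] <;> simp +contextual [Fin.val_inj, eq_comm]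
      _ = ∑ l : Fin (nFree L), x l * ((((∑ i ∈ range C.F.length, if C.F.getD i 0 = l then
            ((C.N.getD i []).getD j 0 : ℚ) / ((C.N.getD i []).getD l 0 : ℤ) else 0)
          + ∑ k ∈ range (excl L).length, frac ((C.Lm.getD j []).getD k (0, 1)) *
              rowQ L ((excl L).getD k 0) (baseI L l) : ℚ)) : ℝ) := by
          refine Finset.sum_congr rfl fun l _ => ?_
          rw [← hspan j j.isLt l l.isLt]
          split_ifs <;> simp
      _ = _ := by
          simp only [Rat.cast_add, Rat.cast_sum, mul_add, Finset.sum_add_distrib, Finset.mul_sum]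
          have h2 : ∑ l : Fin (nFree L), ∑ k ∈ range (excl L).length, x l *
              ((frac ((C.Lm.getD j []).getD k (0, 1)) * rowQ L ((excl L).getD k 0) (baseI L l) : ℚ) : ℝ)
              = 0 := by
            rw [Finset.sum_comm]
            refine Finset.sum_eq_zero fun k hk => ?_
            push_cast
            calc _ = (frac ((C.Lm.getD j []).getD k (0, 1)) : ℝ) *
                  ∑ l : Fin (nFree L), x l * (rowQ L ((excl L).getD k 0) (baseI L l) : ℝ) := by
                  rw [Finset.mul_sum]; exact Finset.sum_congr rfl fun l _ => by ring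
              _ = 0 := by rw [hrow k (Finset.mem_range.1 hk), mul_zero]
          rw [h2, add_zero, Finset.sum_comm, ← Fin.sum_univ_eq_sum_range
            (fun i => ∑ l : Fin (nFree L), x l * (((if C.F.getD i 0 = l then
              ((C.N.getD i []).getD j 0 : ℚ) / ((C.N.getD i []).getD l 0 : ℤ) else 0 : ℚ)) : ℝ))]
          refine Finset.sum_congr rfl fun i _ => ?_
          have hf : C.F.getD i 0 < nFree L := by
            rw [List.getD_eq_getElem _ _ i.isLt]; exact hF _ (List.getElem_mem _)
          rw [Finset.sum_eq_single ⟨C.F.getD i 0, hf⟩]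
          · simp only [if_pos, hy, dif_pos hf]
            push_cast
            ring
          · intro l _ hl
            rw [if_neg fun he => hl (Fin.ext he.symm)]; simp
          · simp
  have hcy : c = comb y fun i => C.vec L i := by
    funext a b
    rw [hcx]
    simp only [comb, hxy, Two.vec, Finset.sum_mul]
    rw [Finset.sum_comm]
    refine Finset.sum_congr rfl fun i _ => ?_
    push_cast
    rw [← Fin.sum_univ_eq_sum_range
      (fun j => ((C.N.getD i []).getD j 0 : ℝ) * (baseI L j a b : ℝ)), Finset.mul_sum]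
    exact Finset.sum_congr rfl fun j _ => by ring
  have hV : ∀ (i : Fin C.F.length) a b, ¬ (a < b ∧ a + b ≤ L) → C.vec L i a b = 0 :=
    fun i a b hab => Finset.sum_eq_zero fun j _ => by simp [baseI, hab]
  rw [hcy, avgForm2_comb y _ hV hT, pairForm_comb, ← sub_nonneg, ← Finset.sum_sub_distrib]
  calc (0 : ℝ) ≤ ∑ r ∈ range C.D.length, (frac (C.D.getD r (0, 1)) : ℝ) *
        ((∑ i, y i * (frac ((C.U.getD r []).getD i (0, 1)) : ℝ)) *
          ∑ i, y i * (frac ((C.U.getD r []).getD i (0, 1)) : ℝ)) := by
        refine Finset.sum_nonneg fun r hr => mul_nonneg ?_ (mul_self_nonneg _)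
        have hr' := Finset.mem_range.1 hr
        have h0 := hD _ (List.getElem_mem hr')
        rw [List.getD_eq_getElem _ _ hr', frac]
        push_cast
        exact div_nonneg (by exact_mod_cast h0) (Nat.cast_nonneg _)
    _ = _ := by
        rw [quad_expand]
        refine Finset.sum_congr rfl fun i _ => ?_
        rw [← Finset.sum_sub_distrib]
        refine Finset.sum_congr rfl fun j _ => ?_
        have := congrArg (fun q : ℚ => (q : ℝ)) (hM i i.isLt j j.isLt)
        simp only [Rat.cast_sub, Rat.cast_sum, Rat.cast_mul] at this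
        rw [← this]
        ring

end Vale.Agent.P359.Cert
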