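import Vale.Agent.P359.Cert.Two.Window

/-!
# P359: two-body checks, levels 0 to 7
-/

namespace Vale.Agent.P359.Cert

theorem twoOK_0 : TwoOK 0 :=
  twoOK_of_check (C := ⟨[], [], [], [], []⟩) ⟨by decide +kernel, by decide +kernel,
    by decide +kernel, by decide +kernel, window_ok, by decide +kernel⟩

theorem twoOK_1 : TwoOK 1 :=
  twoOK_of_check (C := two1) ⟨by decide +kernel, by decide +kernel,
    by decide +kernel, by decide +kernel, window_ok, by decide +kernel⟩

theorem twoOK_2 : TwoOK 2 :=
  twoOK_of_check (C := two2) ⟨by decide +kernel, by decide +kernel,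
    by decide +kernel, by decide +kernel, window_ok, by decide +kernel⟩

theorem twoOK_3 : TwoOK 3 :=
  twoOK_of_check (C := two3) ⟨by decide +kernel, by decide +kernel,
    by decide +kernel, by decide +kernel, window_ok, by decide +kernel⟩

theorem twoOK_4 : TwoOK 4 :=
  twoOK_of_check (C := two4) ⟨by decide +kernel, by decide +kernel,
    by decide +kernel, by decide +kernel, window_ok, by decide +kernel⟩

theorem twoOK_5 : TwoOK 5 :=
  twoOK_of_check (C := two5) ⟨by decide +kernel, by decide +kernel,
    by decide +kernel, by decide +kernel, window_ok, by decide +kernel⟩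

theorem twoOK_6 : TwoOK 6 :=
  twoOK_of_check (C := two6) ⟨by decide +kernel, by decide +kernel,
    by decide +kernel, by decide +kernel, window_ok, by decide +kernel⟩

theorem twoOK_7 : TwoOK 7 :=
  twoOK_of_check (C := two7) ⟨by decide +kernel, by decide +kernel,
    by decide +kernel, by decide +kernel, window_ok, by decide +kernel⟩

end Vale.Agent.P359.Cert
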