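import Vale.Agent.P359.Cert.Two.Data

/-!
# P359: the window of the entries
-/

namespace Vale.Agent.P359.Cert

theorem window_ok :
    ∀ T < 21, ∀ e ∈ entries T, T - e.1.1 - e.1.2 ≤ 5 ∧ T - e.2.1.1 - e.2.1.2 ≤ 5 := by
  decide +kernel

end Vale.Agent.P359.Cert
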